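import Vale.Agent.Lib.P359.Core
import Vale.Agent.Lib.P359.EnergyBridge

/-!
# P359: the spectral gap of the spherical Laughlin Hamiltonian at filling 1/3

`Δ_N = E_1(N) - E_0(N)`, the difference of the two lowest eigenvalues (counted with multiplicity) of
`H_{N,3(N-1)}` on `⋀^N U_{3(N-1)}`, satisfies `liminf_{N → ∞} Δ_N ≥ 1/25 > 0`.
-/

namespace Vale.Agent.Results.P359.GapLiminf

open Vale.Agent.P359 Vale.Agent.P359.Energy Filter

/-- `liminf_{N → ∞} Δ_N ≥ 1/25`. -/
theorem result : ((1 / 25 : ℝ) : EReal) ≤ liminf (fun N : ℕ => ((gap N : ℝ) : EReal)) atTop := by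
  obtain ⟨Q0, hQ0⟩ := core_gap
  refine le_liminf_of_le (by isBoundedDefault) ?_
  filter_upwards [eventually_ge_atTop (Q0 + 2)] with N hN
  exact EReal.coe_le_coe_iff.2 (gap_ge N (by omega) (hQ0 (3 * (N - 1)) (by omega)))

end Vale.Agent.Results.P359.GapLiminf
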