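import Vale.Agent.Lib.P359.Core
import Vale.Agent.Lib.P359.Final
import Vale.Agent.Lib.P359.Front
import Vale.Agent.Lib.P359.FrontBridge

/-!
# P359: the spectral gap of the spherical Laughlin Hamiltonian at filling 1/3

For all sufficiently large `N`, on `⋀^N U_{3(N-1)}`,
`H_{N,3(N-1)} ≥ (1/25) (I - P_L)`.
-/

namespace Vale.Agent.Results.P359.LaughlinGap

open Vale.Agent.P359 Vale.Agent.P359.Sphere

/-- There is `N₀` such that for all `N ≥ N₀` and all `ψ ∈ ⋀^N U_Q`, `Q = 3(N-1)`: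
`(1/25) (‖ψ‖² - ‖P_L ψ‖²) ≤ ⟨ψ, H_{N,Q} ψ⟩`. -/
theorem result : ∃ N₀ : ℕ, ∀ N ≥ N₀, ∀ ψ : (Fin N → Fin (3 * (N - 1) + 1)) → ℂ, IsWedge ψ →
    (1 / 25 : ℝ) * (normSq ψ - normSq (PL N ψ)) ≤ (ip ψ (Ham ψ)).re := by
  obtain ⟨Q0, hQ0⟩ := core_gap
  refine ⟨Q0 + 2, fun N hN ψ hψ => ?_⟩
  have h := final N (by omega) (hQ0 (3 * (N - 1)) (by omega)) (WithLp.toLp 2 ψ)
    ((Bridge.wedge_iff ψ).1 hψ)
  rw [Bridge.normSq_eq, Bridge.normSq_eq, Bridge.ip_eq, Bridge.PL_eq, Bridge.Ham_eq]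
  exact h

end Vale.Agent.Results.P359.LaughlinGap
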