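import Vale.Agent.Lib.P359.Spinor.Main

/-!
# P359: the spectral gap of the spherical Laughlin Hamiltonian at filling 1/3, for polynomials in
the spinor variables
-/

namespace Vale.Agent.Results.P359.SpinorGap

open Vale.Agent.P359.Spinor

/-- `H_{N,Q}` is a well defined operator, and for all `N ≥ N₀` and all antisymmetric
`f ∈ U_Q^{⊗N}`, `Q = 3(N-1)`: `⟨f, H_{N,Q} f⟩ ≥ (1/25) (⟨f, f⟩ - |⟨L, f⟩|² / ⟨L, L⟩)`, where `L` is the
Laughlin wave function, i.e. `H_{N,3(N-1)} ≥ (1/25) (I - P_L)`. -/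
theorem result :
    (∀ (N Q : ℕ) (f : Wave N), ∃! h, IsHam Q f h) ∧
    ∃ N₀ : ℕ, ∀ N ≥ N₀, ∀ f h : Wave N,
      Homog (3 * (N - 1)) f → Anti f → IsHam (3 * (N - 1)) f h →
      (1 / 25 : ℝ) * ((ip f f).re - ‖ip (laughlin N) f‖ ^ 2 / (ip (laughlin N) (laughlin N)).re) ≤
        (ip f h).re :=
  ⟨fun _ Q f => exists_ham Q f, main⟩

end Vale.Agent.Results.P359.SpinorGap
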